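import Vale.Agent.P238.Lower

namespace Vale.Agent.Results.P238.LowerBound

open Vale.Agent.P238

theorem result : ∃ c : ℝ, 0 < c ∧ ∃ n0 : ℕ, ∀ n ≥ n0,
    Real.exp (c * √(Real.log n * Real.log (Real.log n))) ≤ c1 n :=
  ⟨1 / 232, by norm_num, lower_bound⟩

end Vale.Agent.Results.P238.LowerBound
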