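import Vale.Agent.P238.Lower
import Vale.Agent.P238.Upper

namespace Vale.Agent.Results.P238.Theta

open Vale.Agent.P238

theorem result : ∃ c C : ℝ, 0 < c ∧ 0 < C ∧ ∃ n0 : ℕ, ∀ n ≥ n0,
    Real.exp (c * √(Real.log n * Real.log (Real.log n))) ≤ c1 n ∧
    c1 n ≤ Real.exp (C * √(Real.log n * Real.log (Real.log n))) := by
  obtain ⟨n0, h0⟩ := lower_bound
  obtain ⟨n1, h1⟩ := upper_bound
  exact ⟨1 / 232, 15, by norm_num, by norm_num, max n0 n1, fun n hn =>
    ⟨h0 n (le_of_max_le_left hn), h1 n (le_of_max_le_right hn)⟩⟩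

end Vale.Agent.Results.P238.Theta
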